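import Vale.Agent.P011UGA.IF3
import Vale.Agent.P011UC.Main
import Vale.Agent.P011UTS.Main

/-!
The rank argument.
-/

set_option autoImplicit false
set_option linter.all false

namespace Vale.Agent.P011UGR4

open Matrix Vale.Agent.P011L Vale.Agent.P183CH Vale.Agent.P183CH.Chev Vale.Agent.P011U
  Vale.Agent.P011UC Vale.Agent.P011UGA Vale.Agent.P011UH Vale.Agent.P011UTS

section

variable {R : RS} {K G : Type} [Field K] [Group G] {Γ : RG R K G} (hΓ : Γ.Ok) (hR : R.Ok)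
  {J : Set (Fin R.r)} {M : Subgroup G} (hM : ∀ l ∈ Γ.GJ J, ∀ m ∈ M, l * m * l⁻¹ ∈ M)

include hM in
theorem x_of {s : Fin R.r → Kˣ} (hs : hΓ.hT s ∈ M) {γ : R.Q} (hγ : γ ∈ R.Φ) (hJ : R.In J γ)
    (h : rv s γ ≠ 1) (t : K) : Γ.x γ t ∈ M := by
  have h0 : (rv s γ : K) - 1 ≠ 0 := sub_ne_zero.2 fun e => h (Units.ext e)
  have h1 := mul_mem hs (hM (Γ.x γ (t / (rv s γ - 1))) (Subgroup.mem_sup_left (RG.x_mem hγ hJ _))
    _ (inv_mem hs))
  rw [← mul_assoc, ← mul_assoc, hΓ.hT_x s hγ, ← hΓ.x_neg hγ, ← hΓ.add γ hγ] at h1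
  convert h1 using 2
  show t = rv s γ * _ + _
  field_simp
  ring

theorem rv_neg (s : Fin R.r → Kˣ) (γ : R.Q) : rv s (-γ) = (rv s γ)⁻¹ := by
  simp [rv, RS.pr_neg]

include hR hM in
theorem spread [CharZero K] (hC : Cn R J) {s : Fin R.r → Kˣ} (hs : hΓ.hT s ∈ M) {i : Fin R.r}
    (hi : i ∈ J) (h : rv s (R.α i) ≠ 1) : LJ Γ J ≤ M := by
  have h1 : ∀ {s : Fin R.r → Kˣ}, hΓ.hT s ∈ M → ∀ i ∈ J, rv s (R.α i) ≠ 1 →
      ∀ t, Γ.x (R.α i) t ∈ M ∧ Γ.x (-R.α i) t ∈ M := fun hs i hi h t =>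
    ⟨x_of hΓ hM hs (hR.simple i) (RS.In_α hi) h t,
      x_of hΓ hM hs (hR.neg_mem (hR.simple i)) (RS.In_α hi).neg (by rwa [rv_neg, Ne, inv_eq_one]) t⟩
  have h2 : ∀ j ∈ J, ∀ t, Γ.x (R.α j) t ∈ M ∧ Γ.x (-R.α j) t ∈ M := fun j hj =>
    hC (fun j => ∀ t, Γ.x (R.α j) t ∈ M ∧ Γ.x (-R.α j) t ∈ M) i hi j hj (h1 hs i hi h)
      fun a _ b hb ha e => h1 (s := Pi.mulSingle a (Units.mk0 2 two_ne_zero)) (by
        rw [hΓ.hT_single, ← mul_inv_eq_iff_eq_mul.2 (hΓ.sl a _)]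
        exact mul_mem (mul_mem (mul_mem (ha _).1 (ha _).2) (ha _).1)
          (inv_mem (mul_mem (mul_mem (ha _).1 (ha _).2) (ha _).1))) b hb fun e' => e (by
        have h3 := congrArg Units.val ((RG.chi0_single _ _ _).symm.trans e')
        rw [RS.pr_α, Units.val_zpow_eq_zpow_val, Units.val_mk0, Units.val_one] at h3
        have h4 : ((2 : ℚ) ^ R.A b a : ℚ) = 1 := Rat.cast_injective (α := K) (by simpa using h3)
        exact (zpow_eq_one_iff_right₀ (by norm_num) (by norm_num)).1 h4)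
  rw [LJ_eq hR hΓ]
  refine (Subgroup.closure_le _).2 ?_
  rintro _ ⟨j, hj, t, rfl | rfl⟩
  exacts [(h2 j hj t).1, (h2 j hj t).2]

end

variable {K : Type} [Field K]

theorem ent_dual {Ω J : Type} [Fintype J] [DecidableEq J] {S : Subalgebra K (Ω → K)}
    {Y : Ω → Matrix J J K} (h : Ent S Y) (w : Matrix J J K →ₗ[K] K) : (fun x => w (Y x)) ∈ S := by
  have := S.sum_mem fun a (_ : a ∈ Finset.univ) => S.sum_mem fun b (_ : b ∈ Finset.univ) =>
    S.smul_mem (h a b) (w (single a b 1))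
  convert this using 1
  funext x
  conv_lhs => rw [matrix_eq_sum_single (Y x)]
  simp only [map_sum, Finset.sum_apply, Pi.smul_apply, smul_eq_mul]
  refine Finset.sum_congr rfl fun a _ => Finset.sum_congr rfl fun b _ => ?_
  rw [mul_comm, ← smul_eq_mul, ← map_smul, smul_single, smul_eq_mul, mul_one]

theorem li_open {Ω ι E : Type} [Fintype ι] [DecidableEq ι] [AddCommGroup E] [Module K E]
    {S : Subalgebra K (Ω → K)} (u : Ω → ι → E)
    (hu : ∀ (w : E →ₗ[K] K) j, (fun x => w (u x j)) ∈ S) {a : Ω}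
    (h : LinearIndependent K (u a)) : ∃ f ∈ S, f a ≠ 0 ∧ ∀ x, f x ≠ 0 → LinearIndependent K (u x) := by
  obtain ⟨W, hW⟩ := (Fintype.linearCombination K (u a)).exists_leftInverse_of_injective
    (LinearMap.ker_eq_bot.2 h.fintypeLinearCombination_injective)
  let X : Matrix ι ι S := of fun j i => ⟨_, hu ((LinearMap.proj i).comp W) j⟩
  have e : ∀ x, X.det.1 x = (of fun j i => W (u x j) i).det := fun x =>
    ((Pi.evalRingHom _ x).comp S.val.toRingHom).map_det X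
  refine ⟨X.det.1, X.det.2, ?_, fun x hx => ?_⟩
  · have : (of fun j i => W (u a j) i) = 1 := Matrix.ext fun j i => by
      have := LinearMap.congr_fun hW (Pi.single j 1)
      rw [LinearMap.comp_apply, Fintype.linearCombination_apply_single, one_smul] at this
      rw [of_apply, this, LinearMap.id_apply, one_apply, Pi.single_apply]
      simp only [eq_comm]
    rw [e, this, det_one]
    exact one_ne_zero
  · rw [e] at hx
    exact LinearIndependent.of_comp W (linearIndependent_rows_of_det_ne_zero hx)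

variable {D : Chev}

theorem Ad_fix {g : D.grp K} {X : D.Mat K} : Ad g.1 X = X ↔ Commute X g.1.1 := by
  rw [Ad_apply, Units.mul_inv_eq_iff_eq_mul]
  exact eq_comm

theorem Ad_cj (l g : D.grp K) (X : D.Mat K) :
    Ad (l * g * l⁻¹).1 (Ad l.1 X) = Ad l.1 (Ad g.1 X) := by
  rw [← Ad_mul, ← Ad_mul, ← Subgroup.coe_mul, inv_mul_cancel_right, Subgroup.coe_mul]

theorem Ad_inj (l : D.grp K) : Function.Injective (Ad l.1) := fun a b h => by
  have := congrArg (Ad l.1⁻¹) h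
  rwa [← Ad_mul, ← Ad_mul, inv_mul_cancel, Ad_apply, Ad_apply, inv_one, Units.val_one, one_mul,
    mul_one, one_mul, mul_one] at this

/-- The semicontinuity argument. -/
theorem max_rank {V : Submodule K (D.Mat K)} {L N : Subgroup (D.grp K)}
    (hL : ∀ l ∈ L, ∀ X ∈ V, Ad l.1 X ∈ V)
    (hN : ∀ f ∈ PF D K, ∀ a, f a ≠ 0 → ∃ n ∈ N, f n ≠ 0) {γ : D.grp K}
    (H : ∀ n ∈ N, ∀ X ∈ V, Ad (n * γ * n⁻¹).1 X = X → Ad γ.1 X = X) :
    ∃ n ∈ N, ∀ X ∈ V, Ad (n * γ * n⁻¹).1 X = X → ∀ l ∈ L, Ad γ.1 (Ad l.1 X) = Ad l.1 X := by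
  classical
  let A : D.grp K → V →ₗ[K] D.Mat K := fun g => (Ad (g * γ * g⁻¹).1 - LinearMap.id).comp V.subtype
  let C : V →ₗ[K] D.Mat K := (Ad γ.1 - LinearMap.id).comp V.subtype
  let P : ℕ → Prop := fun m => ∃ n ∈ N, ∃ v : Fin m → V, LinearIndependent K fun j => A n (v j)
  have hb : ∀ m, P m → m ≤ Module.finrank K (D.Mat K) := fun m ⟨n, _, v, h⟩ => by
    simpa using h.fintype_card_le_finrank
  have h0 : P 0 := ⟨1, one_mem _, Fin.elim0, linearIndependent_empty_type⟩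
  obtain ⟨m, ⟨n, hn, v, hv⟩, hm⟩ : ∃ m, P m ∧ ¬P (m + 1) :=
    ⟨_, Nat.findGreatest_spec (Nat.zero_le _) h0, fun h =>
      Nat.findGreatest_is_greatest (Nat.lt_succ_self _) (hb _ h) h⟩
  refine ⟨n, hn, fun X hX h l hl => by_contra fun hc => ?_⟩
  let al : V →ₗ[K] V := (Ad l.1).restrict (hL l hl)
  have e : ∀ Y, A (l * n) (al Y) = Ad l.1 (A n Y) := fun Y => by
    show Ad _ (Ad l.1 Y.1) - Ad l.1 Y.1 = Ad l.1 (Ad _ Y.1 - Y.1)
    rw [map_sub, ← Ad_cj l]
    congr 3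
    group
  let v' : Fin (m + 1) → V := Fin.cons (al ⟨X, hX⟩) fun j => al (v j)
  have h1 : LinearIndependent K fun j => (A (l * n)).prod C (v' j) := by
    refine Fintype.linearIndependent_iff.2 fun c hc' => ?_
    have a1 := congrArg Prod.fst hc'
    have a2 := congrArg Prod.snd hc'
    have z : A n ⟨X, hX⟩ = 0 := sub_eq_zero.2 h
    simp only [Prod.fst_sum, Prod.snd_sum, Fin.sum_univ_succ, v', Fin.cons_zero, Fin.cons_succ,
      Prod.smul_fst, Prod.smul_snd, LinearMap.prod_apply, Function.prod, e, z, map_zero, smul_zero,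
      zero_add, Prod.fst_add, Prod.snd_add, Prod.fst_zero, Prod.snd_zero] at a1 a2
    have a3 := Fintype.linearIndependent_iff.1 hv (fun j => c j.succ) (Ad_inj l (by
      simpa only [map_sum, map_smul, map_zero] using a1))
    simp only [a3, zero_smul, Finset.sum_const_zero, add_zero] at a2
    exact Fin.cases ((smul_eq_zero.1 a2).resolve_right fun e => hc (sub_eq_zero.1 e)) a3
  obtain ⟨f, hf, f0, h2⟩ := li_open (S := PF D K) (fun g j => (A g).prod C (v' j)) (fun w j => by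
    have b1 : Ent (PF D K) fun g => (g * γ * g⁻¹).1.1 := (pf_id.mul (ent_const _)).mul pf_inv
    have b2 : Ent (PF D K) fun g => (g * γ * g⁻¹)⁻¹.1.1 := by
      simp only [conj_inv]
      exact (pf_id.mul (ent_const γ⁻¹.1.1)).mul pf_inv
    have := (PF D K).add_mem (ent_dual ((b1.mul (ent_const (v' j).1)).mul b2)
      (w.comp (LinearMap.inl K _ _))) ((PF D K).algebraMap_mem (w (-(v' j).1, C (v' j))))
    convert this using 1
    funext g
    refine Eq.trans (congrArg w ?_) (map_add w _ _)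
    exact Prod.ext (sub_eq_add_neg _ _) (zero_add _).symm) h1
  obtain ⟨n', hn', h3⟩ := hN f hf _ f0
  refine hm ⟨n', hn', v', Fintype.linearIndependent_iff.2 fun c hc' =>
    Fintype.linearIndependent_iff.1 (h2 n' h3) c ?_⟩
  simp only [← map_smul, ← map_sum] at hc' ⊢
  exact Prod.ext hc' (sub_eq_zero.2 (H n' hn' _ (Subtype.prop _) (sub_eq_zero.1 hc')))

open Classical in
theorem ker_ne {V : Submodule K (D.Mat K)} (hV : V ≤ lg D K) {τ : Fin D.R.r → Kˣ}
    (h1 : ∀ i, Ad (hT D K τ).1 (ct K (D.hm i)) = ct K (D.hm i))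
    (h2 : ∀ γ ∈ D.R.Φ, Ad (hT D K τ).1 (ee D K γ) = (rv τ γ : K) • ee D K γ)
    (h : (D.R.Φ.filter fun γ => rv τ γ ≠ 1).card < Module.finrank K V) (n : D.grp K) :
    ∃ X ∈ V, X ≠ 0 ∧ Ad (n * hT D K τ * n⁻¹).1 X = X := by
  set s := (D.R.Φ.filter fun γ => rv τ γ ≠ 1).image (ee D K)
  let W := Submodule.span K (s : Set (D.Mat K))
  have h3 : ∀ Y ∈ lg D K, Ad (hT D K τ).1 Y - Y ∈ W := fun Y hY => by
    refine Submodule.span_induction (p := fun Y _ => Ad (hT D K τ).1 Y - Y ∈ W) ?_ (by simp) ?_ ?_ hY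
    · rintro _ (⟨γ, hγ, -, rfl⟩ | ⟨i, rfl⟩)
      · by_cases e : rv τ γ = 1
        · rw [h2 γ hγ, e, Units.val_one, one_smul, sub_self]
          exact W.zero_mem
        · have : ee D K γ ∈ W := Submodule.subset_span
            (Finset.mem_coe.2 (Finset.mem_image_of_mem _ (Finset.mem_filter.2 ⟨hγ, e⟩)))
          rw [h2 γ hγ]
          exact sub_mem (W.smul_mem _ this) this
      · rw [h1, sub_self]
        exact W.zero_mem
    · intro x y _ _ hx hy
      rw [map_add, add_sub_add_comm]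
      exact add_mem hx hy
    · intro c x _ hx
      rw [map_smul, ← smul_sub]
      exact W.smul_mem _ hx
  let F : V →ₗ[K] W := (((Ad (hT D K τ).1 - LinearMap.id).comp (Ad n⁻¹.1)).comp V.subtype).codRestrict
    W fun Y => h3 _ (lie_ok D K _ GG_ok _ ((GG_ok.GJ_univ (R_ok D)).ge (Subgroup.mem_top _)) _
      (hV Y.2))
  obtain ⟨X, hX, h0⟩ := Submodule.exists_mem_ne_zero_of_ne_bot (LinearMap.ker_ne_bot_of_finrank_lt
    (f := F) (((finrank_span_finset_le_card s).trans Finset.card_image_le).trans_lt h))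
  refine ⟨X, X.2, fun e => h0 (Subtype.ext e), ?_⟩
  have h4 : Ad (hT D K τ).1 (Ad n⁻¹.1 X.1) = Ad n⁻¹.1 X.1 :=
    sub_eq_zero.1 (congrArg Subtype.val (LinearMap.mem_ker.1 hX))
  rw [Subgroup.coe_mul, Subgroup.coe_mul, Ad_mul, Ad_mul, h4]
  exact Ad_inv _ _

/-- **The rank argument.** -/
theorem rnk (lka : LKA) (dim : DIM) (fxl : FXL) : RNK := by
  intro k K _ _ _ _ _ D hD T _ j hC τ hτ ⟨i, hi, h0⟩ hd N hN ⟨n1, hn1, g1, hg1, hc⟩ hz H
  haveI : CharZero K := charZero_of_injective_algebraMap (algebraMap k K).injective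
  haveI : IsAlgClosed K := by
    haveI := IsSepClosure.sep_closed k (K := K)
    exact IsSepClosed.isAlgClosed_of_perfectField K
  obtain ⟨-, -, l3, -, l5, l6, l7, l8⟩ := lka D hD K
  set J : Set (Fin D.R.r) := {i | i ≠ j}
  have hR := R_ok D
  obtain ⟨n, hn, h1⟩ := max_rank (L := (GG D K).GJ J) (lie_ok D K J GG_ok) (N := N)
    (fun f hf a ha => by
      obtain ⟨x, hx, h⟩ := dense_normal (den_pf (T := T) den0 hD) (N := N.subgroupOf T.fix)
        ⟨fun x hx g => hN.2 g g.2 x hx⟩ (fun h => hc (congrArg Subtype.val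
          (Subgroup.mem_center_iff.1 (h (show (⟨n1, hN.1 hn1⟩ : T.fix) ∈ _ from hn1))
            ⟨g1, hg1⟩)).symm) hf ha
      exact ⟨x, hx, h⟩) H
  have h2 : ∀ X ∈ lie D K J, Ad (n * hT D K τ * n⁻¹).1 X = X →
      ∀ γ ∈ D.R.Φ, D.R.In J γ → Commute X (ee D K γ) := fun X hX h γ hγ hJ => by
    let M : Subgroup (D.grp K) :=
      { carrier := {g | ∀ l ∈ (GG D K).GJ J, Ad g.1 (Ad l.1 X) = Ad l.1 X}
        mul_mem' := fun ha hb l hl => by rw [Subgroup.coe_mul, Ad_mul, hb l hl, ha l hl]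
        one_mem' := fun l hl => by simp [Ad_apply]
        inv_mem' := fun {a} ha l hl => Ad_inj a ((Ad_inv _ _).trans (ha l hl).symm) }
    have h3 := spread GG_ok hR (M := M) (fun l hl m hm l' hl' => by
      have := hm _ (mul_mem (inv_mem hl) hl')
      rw [Subgroup.coe_mul, Ad_mul] at this
      rw [Subgroup.coe_mul, Subgroup.coe_mul, Ad_mul, Ad_mul, this]
      exact Ad_inv _ _) hC (h1 X hX h) hi h0
    refine (l3 γ hγ X).2 fun t => Ad_fix.1 ?_
    simpa [Ad_apply] using h3 (RG.x_mem hγ hJ t) 1 (one_mem _)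
  obtain ⟨X, hX, x0, h3⟩ := ker_ne (V := lie D K J) (Submodule.span_mono (Set.union_subset_union_left
    _ fun _ ⟨γ, a, _, b⟩ => ⟨γ, a, RS.In_univ _, b⟩)) (l8 τ).1 (l8 τ).2.1
    (hd.trans_le (dim D hD K J)) n
  have h4 := ((fxl D hD K j).1 X hX (h2 X hX h3)).2 x0 _ h3
  have h5 := hz (n * hT D K τ * n⁻¹ * (hT D K τ)⁻¹) (by
    rw [mul_assoc, mul_assoc, ← mul_assoc (hT D K τ)]
    exact mul_mem hn (hN.2 _ hτ _ (inv_mem hn)))
    (mul_mem h4 (inv_mem (Subgroup.mem_sup_right (GG_ok.hT_mem τ))))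
  generalize ha : n * hT D K τ * n⁻¹ * (hT D K τ)⁻¹ = a at h5
  have h6 : ∀ γ ∈ D.R.Φ, D.R.In J γ → Commute a.1.1 (ee D K γ) := fun γ hγ hJ =>
    (l3 γ hγ _).2 fun t => congrArg (fun x : D.grp K => x.1.1) (h5 _ (RG.x_mem hγ hJ t))
  have s1 := hR.simple i
  have i1 : D.R.In J (D.R.α i) := RS.In_α hi
  have h7 : Commute (ct K (D.hm i)) a.1.1 := by
    rw [← l6 i]
    exact (((h6 _ s1 i1).mul_right (h6 _ (hR.neg_mem s1) i1.neg)).sub_right
      ((h6 _ (hR.neg_mem s1) i1.neg).mul_right (h6 _ s1 i1))).symm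
  have h8 := h2 _ (lie_h i) (by
    rw [eq_mul_of_mul_inv_eq ha, Subgroup.coe_mul, Ad_mul, (l8 τ).1, Ad_fix.2 h7]) _ s1 i1
  have h9 := l5 i _ s1
  rw [RS.pr_α, hR.diag] at h9
  exact smul_ne_zero (by norm_num) (l7 _ s1) (h9.symm.trans (sub_eq_zero.2 h8))

end Vale.Agent.P011UGR4
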